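import Vale.Agent.P165Hyp.Graph

/-!
# Nonuniqueness for groups acting properly on products of hyperbolic graphs
-/

namespace Vale.Agent.Results.P165.HyperbolicProducts

open Vale.Agent.P165 Vale.Agent.P165Hyp

/-- Every Cayley graph of a group virtually acting properly on a finite product of bounded degree
hyperbolic graphs, non-elementarily on each factor, has `pc < pu`; in particular every Cayley
graph of a virtual product of non-elementary hyperbolic groups. -/
theorem result :
    (∀ (Γ : Type) [Group Γ] (S : Finset Γ) (H : Subgroup Γ), H.FiniteIndex →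
      Subgroup.closure (S : Set Γ) = ⊤ →
      ∀ (d : ℕ), 0 < d → ∀ (X : Fin d → Type) (G : ∀ i, SimpleGraph (X i))
        (ρ : ∀ i, H →* (G i ≃g G i)) (o : ∀ i, X i) (D N : ℕ),
        (∀ i, (G i).Connected) →
        (∀ i x, ((G i).neighborSet x).Finite ∧ ((G i).neighborSet x).ncard ≤ D) →
        (∀ i, Hyperbolic (G i)) →
        (∀ p q : ∀ i, X i, {h : H | ∀ i, ρ i h (p i) = q i}.Finite ∧
          {h : H | ∀ i, ρ i h (p i) = q i}.ncard ≤ N) →
        (∃ g h : H, ∀ i, Independent (G i) (fun a x => ρ i a x) (o i) g h) →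
        pc (SimpleGraph.mulCayley (S : Set Γ)) < pu (SimpleGraph.mulCayley (S : Set Γ))) ∧
    (∀ (Γ : Type) [Group Γ] (S : Finset Γ) (H : Subgroup Γ), H.FiniteIndex →
      Subgroup.closure (S : Set Γ) = ⊤ →
      ∀ (d : ℕ), 0 < d → ∀ (Λ : Fin d → Type) [∀ i, Group (Λ i)] (T : ∀ i, Finset (Λ i)),
        (∀ i, Subgroup.closure (T i : Set (Λ i)) = ⊤) →
        (∀ i, Hyperbolic (SimpleGraph.mulCayley (T i : Set (Λ i)))) →
        (∀ i, ∃ g h : Λ i,
          Independent (SimpleGraph.mulCayley (T i : Set (Λ i))) (fun a x => a * x) 1 g h) →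
        Nonempty (H ≃* ∀ i, Λ i) →
        pc (SimpleGraph.mulCayley (S : Set Γ)) < pu (SimpleGraph.mulCayley (S : Set Γ))) := by
  refine ⟨fun Γ _ S H hfi hS d hd X G ρ o D N hc hdeg hhyp htr hp => ?_,
    fun Γ _ S H hfi hS d hd Λ _ T hT hhyp hp hφ => ?_⟩
  · exact pc_lt_pu_of_graphs S H hfi hS hd X G ρ o D N hc hdeg hhyp htr hp
  · obtain ⟨φ⟩ := hφ
    exact pc_lt_pu_of_product S H hfi hS hd Λ T hT hhyp hp φ

end Vale.Agent.Results.P165.HyperbolicProducts
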