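import Vale.Agent.P165.Examples
import Vale.Agent.P165.Large

/-!
# Nonuniqueness phase for large degree with a fixed relative gap, and for large powers
-/

namespace Vale.Agent.Results.P165.PowersNonuniqueness

open Vale.Agent.P165

theorem countable_of_connected {V : Type} {G : SimpleGraph V}
    (hfin : ∀ x, (G.neighborSet x).Finite) (hc : G.Connected) : Countable V := by
  classical
  obtain ⟨o⟩ := hc.nonempty
  set nb := fun x => (hfin x).toFinset
  have key : ∀ {a b : V} (w : G.Walk a b), a ∈ reach nb w.length b := by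
    intro a b w
    induction w with
    | nil => simp [reach]
    | cons hu q ih =>
      rw [SimpleGraph.Walk.length_cons]
      exact Finset.mem_union_right _ (Finset.mem_biUnion.2 ⟨_, ih, ((hfin _).mem_toFinset).2 hu.symm⟩)
  have huniv : (Set.univ : Set V) = ⋃ L, (reach nb L o : Set V) := by
    ext v
    obtain ⟨w⟩ := hc.preconnected v o
    simpa using ⟨_, key w⟩
  refine Set.countable_univ_iff.1 ?_
  rw [huniv]
  exact Set.countable_iUnion fun L => (reach nb L o).countable_toSet

/-- For each relative isoperimetric constant or spectral radius below one, every quasi-transitive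
graph of large degree satisfies `pc < pu`; so do large distance powers, Cartesian powers and
blow-ups of nonamenable graphs. -/
theorem result :
    (∀ c : ℝ, 0 < c → ∃ D : ℕ,
      ∀ (V : Type) [Infinite V] (G : SimpleGraph V) (d : ℕ), D ≤ d → Regular G d → G.Connected →
        QuasiTransitive G →
        (∀ A : Finset V, c * d * A.card ≤ ∑ a ∈ A, ((G.neighborSet a \ ↑A).ncard : ℝ)) →
        pc G < pu G) ∧
    (∀ ρ : ℝ, ρ < 1 → ∀ K : ℝ, ∃ D : ℝ,
      ∀ (V : Type) [Infinite V] (G : SimpleGraph V), (∀ x, (G.neighborSet x).Finite) →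
        G.Connected → QuasiTransitive G →
        ∀ (f : V → ℝ) (lam : ℝ), D ≤ lam → (∀ x, 1 ≤ f x ∧ f x ≤ K) →
        (∀ x, ((G.neighborSet x).ncard : ℝ) ≤ K * lam) →
        (∀ x, lam * f x ≤ ∑ᶠ y ∈ G.neighborSet x, f y) →
        (∀ (k : ℕ) (x y : V), ({w : G.Walk x y | w.length = k}.ncard : ℝ) ≤ (ρ * lam) ^ k) →
        pc G < pu G) ∧
    (∀ (V : Type) [Infinite V] (G : SimpleGraph V) (d : ℕ), Regular G d → G.Connected →
      QuasiTransitive G → Nonamenable G → ∃ N : ℕ, ∀ n ≥ N,
        pc (powGraph G n) < pu (powGraph G n) ∧ pc (blowUp G n) < pu (blowUp G n)) ∧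
    (∀ (V : Type) [Infinite V] (G : SimpleGraph V) (d : ℕ), Regular G d → G.Connected →
      Transitive G → Nonamenable G → ∃ K : ℕ, ∀ k ≥ K, pc (distPow G k) < pu (distPow G k)) := by
  refine ⟨fun c hc0 => ?_, fun ρ hρ K => ?_, fun V _ G d hd hc hq hn => ?_,
    fun V _ G d hd hc ht hn => ?_⟩
  · obtain ⟨D, gap⟩ := gap_of_isoperimetry hc0
    refine ⟨D, fun V _ G d hDd hd hc hq hA => ?_⟩
    have := countable_of_connected (fun x => (hd x).1) hc
    exact gap V G d hDd hd hc hq hA
  · obtain ⟨D, gap⟩ := gap_of_weight hρ K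
    refine ⟨D, fun V _ G hfin hc hq f lam hD hf hdeg hlam hW => ?_⟩
    have := countable_of_connected hfin hc
    classical
    have h : LF G (fun x => (hfin x).toFinset) := ⟨by simp⟩
    refine gap V G _ h hc hq f lam hD (fun x => (hf x).1) (fun x => (hf x).2)
      (fun x => by rw [← Set.ncard_eq_toFinset_card _ (hfin x)]; exact hdeg x)
      (fun x => (hlam x).trans_eq (finsum_nb h f x)) fun k x y => ?_
    rw [← ncard_walks h]
    exact hW k x y
  · have := countable_of_connected (fun x => (hd x).1) hc
    classical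
    exact powers_gap hd hc hq hn
  · have := countable_of_connected (fun x => (hd x).1) hc
    exact distPow_gap hd hc ht hn

end Vale.Agent.Results.P165.PowersNonuniqueness
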