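import Vale.Agent.P165FreeProd.Sub.Reduce
import Vale.Agent.P165FreeProd.Ker.Lattice

/-!
# Nonuniqueness for groups virtually embedding in products of free groups, and more
-/

namespace Vale.Agent.Results.P165.VirtualSubProductFree

open Vale.Agent.P165 Vale.Agent.P165FreeProd
open scoped Pointwise

/-- Points of a ball are short words. -/
theorem exists_word_of_mem_Ball {Γ : Type} [Group Γ] [DecidableEq Γ] (S : Finset Γ) :
    ∀ {m : ℕ} {x : Γ}, x ∈ Ker.Ball S m →
      ∃ l : List Γ, l.length ≤ m ∧ (∀ s ∈ l, s ∈ S ∨ s⁻¹ ∈ S) ∧ l.prod = x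
  | 0, x, hx => by
    rw [Ker.Ball, reach, Finset.mem_singleton] at hx
    exact ⟨[], le_rfl, by simp, by simp [hx]⟩
  | m + 1, x, hx => by
    rcases (Ker.mem_Ball_succ S).1 hx with h | ⟨z, hz, s, hs, rfl⟩
    · obtain ⟨l, hl, hls, hp⟩ := exists_word_of_mem_Ball S h
      exact ⟨l, hl.trans (Nat.le_succ m), hls, hp⟩
    · obtain ⟨l, hl, hls, hp⟩ := exists_word_of_mem_Ball S hz
      refine ⟨l ++ [s], by simpa using hl, ?_, by simp [hp]⟩
      intro t ht
      rcases List.mem_append.1 ht with h | h
      · exact hls t h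
      · obtain rfl := List.mem_singleton.1 h
        simp only [gens, Finset.mem_erase, Finset.mem_union, Finset.mem_image] at hs
        rcases hs.2 with h' | ⟨u, hu, rfl⟩
        · exact Or.inl h'
        · exact Or.inr (by simpa using hu)

/-- The conjecture holds for every Cayley graph of a finitely generated group with a finite index
subgroup embedding in a product of finitely many free groups, or mapping there with kernel of
polynomial relative growth. The last clause names the products with lattices. -/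
theorem result :
    ∀ (Γ : Type) [Group Γ] (S : Finset Γ) (H : Subgroup Γ),
      H.FiniteIndex → Subgroup.closure (S : Set Γ) = ⊤ →
      ((Nonamenable (SimpleGraph.mulCayley (S : Set Γ)) ∧
          ∃ (d : ℕ) (n : Fin d → ℕ) (π : H →* (∀ i, FreeGroup (Fin (n i + 2)))),
            Function.Injective π ∨
              ∃ C e : ℕ, ∀ (m : ℕ) (F : Finset H), (∀ h ∈ F, π h = 1 ∧
                ∃ l : List Γ, l.length ≤ m ∧ (∀ s ∈ l, s ∈ S ∨ s⁻¹ ∈ S) ∧ l.prod = (h : Γ)) →
                  F.card ≤ C * (m + 1) ^ e) ∨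
        (∃ (d : ℕ) (n : Fin d → ℕ) (e : ℕ), 0 < d ∧
          Nonempty (H ≃* (∀ i, FreeGroup (Fin (n i + 2))) × Multiplicative (Fin e → ℤ)))) →
      pc (SimpleGraph.mulCayley (S : Set Γ)) < pu (SimpleGraph.mulCayley (S : Set Γ)) := by
  intro Γ _ S H hfi hS hcases
  classical
  have := P165FreeProd.countable_gamma S hS
  rcases hcases with ⟨hn, d, n, π, hπ⟩ | ⟨d, n, e, hd, ⟨φ⟩⟩
  · rcases hπ with hinj | ⟨C, e, hg⟩
    · refine Sub.pc_lt_pu_of_hom hS hn d n H hfi π 1 0 fun m F hF => ?_
      rw [pow_zero, mul_one]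
      exact Finset.card_le_one.2 fun a ha b hb => hinj ((hF a ha).1.trans (hF b hb).1.symm)
    · exact Sub.pc_lt_pu_of_hom hS hn d n H hfi π C e fun m F hF =>
        hg m F fun h hh => ⟨(hF h hh).1, exists_word_of_mem_Ball S (hF h hh).2⟩
  · obtain ⟨T, hT, C, hgrow⟩ := Ker.lattice_growth e
    refine Ker.pc_lt_pu_product hd hS (H.subtype.comp φ.symm.toMonoidHom)
      (Subtype.val_injective.comp φ.symm.injective) ?_ hT (C := C) (e := e)
      (fun m => by convert hgrow m)
    rw [MonoidHom.range_comp, MonoidHom.range_eq_top_of_surjective _ φ.symm.surjective,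
      ← MonoidHom.range_eq_map, Subgroup.range_subtype]
    exact hfi

end Vale.Agent.Results.P165.VirtualSubProductFree
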