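import Vale.Agent.P165.Product

/-!
# Nonuniqueness phase for an absolute spectral gap, and for products with large powers
-/

namespace Vale.Agent.Results.P165.WeakGapProducts

open Vale.Agent.P165

theorem countable_of_connected {V : Type} {G : SimpleGraph V}
    (hfin : ∀ x, (G.neighborSet x).Finite) (hc : G.Connected) : Countable V := by
  classical
  obtain ⟨o⟩ := hc.nonempty
  set nb := fun x => (hfin x).toFinset
  have key : ∀ {a b : V} (w : G.Walk a b), a ∈ reach nb w.length b := by
    intro a b w
    induction w with
    | nil => simp [reach]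
    | cons hu q ih =>
      rw [SimpleGraph.Walk.length_cons]
      exact Finset.mem_union_right _ (Finset.mem_biUnion.2 ⟨_, ih, ((hfin _).mem_toFinset).2 hu.symm⟩)
  have huniv : (Set.univ : Set V) = ⋃ L, (reach nb L o : Set V) := by
    ext v
    obtain ⟨w⟩ := hc.preconnected v o
    simpa using ⟨_, key w⟩
  refine Set.countable_univ_iff.1 ?_
  rw [huniv]
  exact Set.countable_iUnion fun L => (reach nb L o).countable_toSet

/-- An absolute gap between the spectral radius and the degree, with small short returns, gives
`pc < pu`; so the product of a nonamenable graph with a large power of any connected regular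
quasi-transitive graph has a nonuniqueness phase. -/
theorem result :
    (∃ ε : ℝ, 0 < ε ∧ ∀ (V : Type) [Infinite V] (G : SimpleGraph V),
      (∀ x, (G.neighborSet x).Finite) → G.Connected → QuasiTransitive G →
      ∀ D δ : ℝ, 0 < δ → δ ≤ 1 → (∀ x, D ≤ ((G.neighborSet x).ncard : ℝ)) →
        (∀ (k : ℕ) (x y : V), ({w : G.Walk x y | w.length = k}.ncard : ℝ) ≤ (D - δ) ^ k) →
        (∀ x : V, ({w : G.Walk x x | w.length = 3}.ncard : ℝ) ≤ ε * δ * D ^ 2 ∧
          ({w : G.Walk x x | w.length = 4}.ncard : ℝ) ≤ ε * δ * D ^ 3 ∧
          ({w : G.Walk x x | w.length = 8}.ncard : ℝ) ≤ ε * δ ^ 3 * D ^ 5) →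
        pc G < pu G) ∧
    (∀ (V : Type) [Infinite V] (G : SimpleGraph V) (d : ℕ), Regular G d → G.Connected →
      QuasiTransitive G → Nonamenable G → ∀ (U : Type) (K : SimpleGraph U) (e : ℕ), 0 < e →
        Regular K e → K.Connected → QuasiTransitive K →
        ∃ N : ℕ, ∀ k ≥ N, pc (G.boxProd (powGraph K k)) < pu (G.boxProd (powGraph K k))) := by
  refine ⟨⟨1 / 1000000, by norm_num, fun V _ G hfin hc hq D δ hδ hδ1 hD hW hret => ?_⟩,
    fun V _ G d hd hc hq hn U K e he heK hcK hqK => ?_⟩
  · have := countable_of_connected hfin hc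
    classical
    have h : LF G (fun x => (hfin x).toFinset) := ⟨by simp⟩
    refine gap_of_absolute h hc hq hδ hδ1
      (fun x => (hD x).trans_eq (by rw [← Set.ncard_eq_toFinset_card _ (hfin x)]))
      (fun k x y => ?_) fun x => ?_
    · rw [← ncard_walks h]
      exact hW k x y
    · rw [← ncard_walks h, ← ncard_walks h, ← ncard_walks h]
      exact hret x
  · have := countable_of_connected (fun x => (hd x).1) hc
    have := countable_of_connected (fun x => (heK x).1) hcK
    exact product_gap hd hc hq hn he heK hcK hqK

end Vale.Agent.Results.P165.WeakGapProducts
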